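import Vale.Agent.P363.Stmt
import Vale.Agent.P363.Bdl.B3

namespace Vale.Agent.Results.P363.FourElectrons

open Vale.Agent.P363.Stmt

/-- There is a Coulomb molecule with three nuclei and four electrons, and a normalized ground
state of it, whose density is not noninteracting ensemble representable. -/
theorem result : ∃ (Z : Fin 3 → ℕ) (R : Fin 3 → R3) (Ψ : ElectronState 4),
    (∀ j, 1 ≤ Z j) ∧ Function.Injective R ∧ IsGroundState (coulombPotential Z R) Ψ ∧
      ¬ NonintEnsembleRepresentable 3 (density Ψ) :=
  Vale.Agent.P363.D.stmt_exists

end Vale.Agent.Results.P363.FourElectrons
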